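import Vale.Agent.P287D.Sk
import Vale.Agent.P287D.Va.Dsc
import Vale.Agent.P287D.Gm.Ffs

/-!
# P287D: the dimensions in a link
-/

open Set

noncomputable section

namespace Vale.Agent.P287D.Lk

variable {K : Type} [Field K] [Algebra ℂ K] {n a b : ℕ}

theorem ff_tower {L E : Type} [Field L] [Algebra ℂ L] [Field E] [Algebra ℂ E] [Algebra L E]
    [IsScalarTower ℂ L E] (h : FF L a) (h' : FF E b) :
    a ≤ b ∧ (b ≤ a → Algebra.IsAlgebraic L E) := by
  have k := trdeg_add_eq ℂ L (A := E)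
  rw [h.trdeg, h'.trdeg] at k
  refine ⟨by exact_mod_cast (k ▸ le_self_add : (a : Cardinal) ≤ b), fun e => ?_⟩
  have f : Algebra.trdeg L E < Cardinal.aleph0 :=
    (k ▸ le_add_self : Algebra.trdeg L E ≤ b).trans_lt Cardinal.natCast_lt_aleph0
  obtain ⟨m, hm⟩ := Cardinal.lt_aleph0.1 f
  rw [hm] at k
  have : a + m = b := by exact_mod_cast k
  exact trdeg_eq_zero_iff.1 (by rw [hm, show m = 0 by omega, Nat.cast_zero])

theorem ff_le {L L' : IntermediateField ℂ K} (e : L ≤ L') (h : FF L a) (h' : FF L' b) :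
    a ≤ b ∧ (b ≤ a → Cld L → L = L') := by
  let : Algebra L L' := (IntermediateField.inclusion e).toRingHom.toAlgebra
  have : IsScalarTower ℂ L L' := .of_algebraMap_eq fun _ => rfl
  have : IsScalarTower L L' K := .of_algebraMap_eq fun _ => rfl
  obtain ⟨p, q⟩ := ff_tower h h'
  exact ⟨p, fun k c => le_antisymm e fun f hf =>
    c f (((q k).isAlgebraic (⟨f, hf⟩ : L')).algebraMap (A := K))⟩

variable (hF : FLD) (hK : FF K n) {Λ R : BD K}
include hF hK

theorem dim_le (Λ : BD K) : dim Λ ≤ n := (ff_tower (hF.ff n K hK Λ) hK).1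

theorem dim_lt (h : Smp Λ) (hb : ¬ Big Λ) : dim Λ < n := not_le.1 fun e =>
  hb ((hF.top n K hK Λ h).2 (top_unique fun f _ =>
    hF.cld n K hK Λ h f (((ff_tower (hF.ff n K hK Λ) hK).2 e).isAlgebraic f)))

theorem dim_mono (hR : Smp R) (d : Dsc Λ R) :
    dim R ≤ dim Λ ∧ (dim Λ ≤ dim R → fld R = fld Λ) :=
  let ⟨p, q⟩ := ff_le (hF.le n K hK Λ R d.smp hR d) (hF.ff n K hK R) (hF.ff n K hK Λ)
  ⟨p, fun e => q e (hF.cld n K hK R hR)⟩

omit hK in
/-- **DIM** -/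
theorem dim_of : DIM := by
  intro K _ _ hK R A Λ B Γ E h i
  obtain ⟨p, q⟩ := dim_mono hF hK h.smp (h.down i)
  refine ⟨p, Nat.le_of_lt_succ (dim_lt hF hK (h.mfs i).smp (h.mfs i).nbig), fun e => q e.ge,
    fun P e => ?_⟩
  obtain ⟨a, Y, ΓY, x⟩ := h.ext i P e
  refine ⟨p.antisymm (dim_mono hF hK a.smp_left a.dsc').1, ?_⟩
  have u : cd (Λ i) P ≤ 3 := dim_le hF (Gm.ff_κ P hK) _
  have v := (hF.cen 3 K hK (Λ i) P P x.smp).1
  have w : cd (Λ i) P ≠ 3 := fun c => x.off (v.2 c)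
  omega

end Vale.Agent.P287D.Lk
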