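import Vale.Agent.P287D.Sk
import Vale.Agent.P287D.Gs.Ful
import Vale.Agent.P287D.Va.Dsc

/-!
# P287D: from the links of the geography to the links of the skeleton
-/

open Set

noncomputable section

namespace Vale.Agent.P287D.Lk

variable {K : Type} [Field K] [Algebra ℂ K] {n : ℕ} {Λ Λ' X B B' Γ Γ' R Y ΓY G : BD K}

theorem amp_large (h : ∃ m : ℝ, AmpOn Λ (m • B - Γ)) (d : Dsc R B) (e : Dsc Λ R) :
    ∃ c₀ : ℝ, ∀ c, c₀ ≤ c → AmpOn Λ (c • R - Γ) := by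
  obtain ⟨m, h⟩ := h
  obtain ⟨c₀, -, k⟩ := (d.smul (-m)).exists_add
  refine ⟨c₀, fun c hc => ?_⟩
  have := h.add_smp (k c hc) (((e.trans d).smul _).add (e.smul c))
  rwa [show m • B - Γ + (-m • B + c • R) = c • R - Γ by module] at this

theorem term_on (h : Term n Λ Γ) {P : Pl K} (hP : On n Λ P) : dsc (n + 1) Γ P = 0 :=
  sub_eq_zero.2 (h.hull.2 P hP).symm

/-- Fano varieties are of Fano type -/
theorem ft_of (h : Fano1 n Λ) : FT K n := by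
  obtain ⟨Γ, t, a⟩ := h.term
  refine ⟨Λ, Γ, t.smp, t.big, t.hull.1.car, fun P hP => (term_on t hP).le, fun P => ?_, a.nef,
    a.big_iff.1 t.big⟩
  by_cases k : On n Λ P
  · rw [term_on t k]; norm_num
  · linarith [t.pos P k]

theorem rho_le (hf : Module.Finite ℝ (Pic B)) (d : Dsc B R) : rho R ≤ rho B :=
  Submodule.finrank_mono d.Pic_le

theorem amp_of_rho (hf : Module.Finite ℝ (Pic B)) (hR : Smp R) (d : Dsc B R)
    (e : rho B ≤ rho R) : AmpOn B R := by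
  have k : Pic R = Pic B := Submodule.eq_of_le_of_finrank_le d.Pic_le e
  exact .of_dsc d ((mk_mem_Pic hR).1 (k ▸ (mk_mem_Pic d.smp).2 (.refl d.smp)))

section

variable (hN : NEG) (hK : FF K (n + 1))
include hN hK

theorem on_iff (h : AmpOn Λ Λ') (P : Pl K) : On n Λ P ↔ On n Λ' P :=
  (hN.iso n K hK Λ Λ' h.smp_left h.smp h).2.2.1 P

theorem dim_eq (h : AmpOn Λ Λ') : dim Λ = dim Λ' := by
  rw [dim, dim, (hN.iso n K hK Λ Λ' h.smp_left h.smp h).1]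

theorem hull_congr (h : AmpOn X Λ) {Z β : BD K} (k : Hull n Λ Z β) : Hull n X Z β :=
  ⟨h.dsc_iff.2 k.1, fun P hP => k.2 P ((on_iff hN hK h P).1 hP)⟩

theorem term_congr (h : AmpOn X Λ) (t : Term n Λ Γ) : Term n X Γ :=
  ⟨h.smp_left, h.big_iff.2 t.big, hull_congr hN hK h t.hull,
    fun P hP => t.pos P fun k => hP ((on_iff hN hK h P).2 k)⟩

theorem qf_congr (h : AmpOn X Λ) (t : QF n Λ) : QF n X := fun P hP =>
  let ⟨β, a, b⟩ := t P ((on_iff hN hK h P).1 hP); ⟨β, a, hull_congr hN hK h b⟩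

theorem term_uniq (t : Term n Λ Γ) (t' : Term n Λ Γ') : Γ = Γ' :=
  Gs.det_eq hN hK t.smp t.big t.hull.1 t'.hull.1 fun P hP => by
    rw [t.hull.2 P hP, t'.hull.2 P hP]

theorem mfs_congr (h : AmpOn X Λ) (h' : AmpOn B' B) (m : Mfs n Λ Γ B) : Mfs n X Γ B' := by
  have d : Dsc Λ B' := m.des.trans h'.dsc'
  obtain ⟨c, hc⟩ := amp_large m.amp h'.1 d
  exact ⟨term_congr hN hK h m.term, qf_congr hN hK h m.qf, h'.smp_left, h.dsc_iff.2 d,
    fun k => m.nb (h'.big_iff.1 k), by rw [h.rho_eq, h'.rho_eq, m.rho],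
    c, h.amp_iff.2 (hc c le_rfl)⟩

theorem sd_congr (h : AmpOn X Λ) (h' : AmpOn B' B) (s : Sd n R Y (Λ, Γ, B)) :
    Sd n R Y (X, Γ, B') := by
  refine ⟨mfs_congr hN hK h h' s.mfs, h'.dsc_iff.2 s.des,
    fun P hP => s.sub P ((on_iff hN hK h P).1 hP), ?_⟩
  simp only [on_iff hN hK h, h.rho_eq]
  exact s.cnt

/-- two models with the same prime divisors which are Fano over the same base -/
theorem amp_of_on (t : Term n Λ Γ) (t' : Term n Λ' Γ') {c : ℝ} (a : AmpOn Λ (c • R - Γ))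
    (a' : AmpOn Λ' (c • R - Γ')) (e : ∀ P, On n Λ P ↔ On n Λ' P) : AmpOn Λ Λ' := by
  have k : c • R - Γ = c • R - Γ' := le_antisymm
    (Gs.le_hull hN hK t'.smp t'.big a.smp a'.1 fun P hP => by
      rw [Pi.sub_apply, Pi.sub_apply, t'.hull.2 P hP, t.hull.2 P ((e P).2 hP)])
    (Gs.le_hull hN hK t.smp t.big a'.smp a.1 fun P hP => by
      rw [Pi.sub_apply, Pi.sub_apply, t.hull.2 P hP, t'.hull.2 P ((e P).1 hP)])
  exact a.trans (k ▸ a'.symm)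

/-- a terminal `ℚ`-factorial model with one more prime divisor is the extraction -/
theorem xtr_of {Z ΓZ : BD K} {E : Pl K} (t : Term n Λ Γ) (q : QF n Λ) (tZ : Term n Z ΓZ)
    (qZ : QF n Z) (d : Dsc Z Λ) (off : ¬ On n Λ E) (on : ∀ Q, On n Z Q ↔ On n Λ Q ∨ Q = E) :
    Xtr n Z ΓZ Λ E := by
  obtain ⟨F, -, F0, F1, a⟩ := hN.exa n K hK Λ Z t.smp t.big tZ.smp d q
  have p := F1 E off ((on E).2 (.inr rfl))
  have dF : Dsc Z F := by simpa using d.sub a.1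
  have hβ : Hull n Z E.δ ((F E)⁻¹ • F) := ⟨dF.smul _, fun Q hQ => by
    rcases (on Q).1 hQ with k | rfl
    · rw [Pi.smul_apply, F0 Q k, smul_zero, Pl.δ_ne (show Q ≠ E from fun e => off (e ▸ k))]
    · rw [Pi.smul_apply, smul_eq_mul, inv_mul_cancel₀ p.ne', Pl.δ_self]⟩
  have a' : AmpOn Z ((F E)⁻¹ • Λ - (F E)⁻¹ • F) := smul_sub (F E)⁻¹ Λ F ▸ a.smul (inv_pos.2 p)
  refine ⟨tZ, qZ, t.smp, t.big, d, off, on, ?_, _, _, hβ, a'⟩
  have e : ΓZ = Γ + dsc (n + 1) Γ E • (F E)⁻¹ • F :=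
    Gs.det_eq hN hK tZ.smp tZ.big tZ.hull.1 ((d.trans t.hull.1).add (hβ.1.smul _)) fun Q hQ => by
      rw [Pi.add_apply, Pi.smul_apply, hβ.2 Q hQ, tZ.hull.2 Q hQ]
      rcases (on Q).1 hQ with k | rfl
      · rw [Pl.δ_ne (show Q ≠ E from fun e => off (e ▸ k)), smul_zero, add_zero, t.hull.2 Q k]
      · simp [Pl.δ_self, dsc]
  obtain ⟨c₀, -, k⟩ := t.hull.1.neg.exists_add
  have := (a'.smul (t.pos E off)).add_smp (k c₀ le_rfl) ((d.trans t.hull.1.neg).add (d.smul _))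
  refine ⟨c₀ + dsc (n + 1) Γ E * (F E)⁻¹, ?_⟩
  rwa [e, show (c₀ + dsc (n + 1) Γ E * (F E)⁻¹) • Λ - (Γ + dsc (n + 1) Γ E • (F E)⁻¹ • F) =
    dsc (n + 1) Γ E • ((F E)⁻¹ • Λ - (F E)⁻¹ • F) + (-Γ + c₀ • Λ) by module]

variable (hM : MOD) (hf : ∀ Λ : BD K, Smp Λ → Module.Finite ℝ (Pic Λ))
include hM hf

/-- one side of a link -/
theorem side (v : Vtx n G R Y ΓY) (s : Sd n R Y (Λ, Γ, B)) : ∃ E : Option (Pl K),
    (∀ P, On n Y P ↔ On n Λ P ∨ E = some P) ∧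
    (∀ P, E = some P → AmpOn B R ∧ ∃ Z ΓZ, Xtr n Z ΓZ Λ P) ∧
    (E = none → rho Y = rho B + 1) ∧ (rho Y ≤ rho R + 1 → E = none ∧ AmpOn B R) := by
  have m := s.mfs
  have f := hM.exc n K hK Y Λ v.term.smp v.term.big m.term.smp m.term.big
  have c : rho Y = rho Λ + {P | On n Y P ∧ ¬ On n Λ P}.ncard := s.cnt
  have r : rho Λ = rho B + 1 := m.rho
  have l : rho R ≤ rho B := rho_le (hf B m.smp) s.des
  have u := v.rho
  rcases Nat.eq_zero_or_pos {P | On n Y P ∧ ¬ On n Λ P}.ncard with k | k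
  · have e := (ncard_eq_zero f).1 k
    refine ⟨none, fun P => ⟨fun h => .inl (by_contra fun h' => ?_),
      fun h => s.sub P (by simpa using h)⟩, fun P h => by simp at h, fun _ => by omega,
      fun h => ⟨rfl, amp_of_rho (hf B m.smp) v.smp s.des (by omega)⟩⟩
    exact (e ▸ (⟨h, h'⟩ : P ∈ {P | On n Y P ∧ ¬ On n Λ P}) : P ∈ (∅ : Set (Pl K)))
  · obtain ⟨E, e⟩ := ncard_eq_one.1 (show {P | On n Y P ∧ ¬ On n Λ P}.ncard = 1 by omega)
    have hE : On n Y E ∧ ¬ On n Λ E := (e ▸ mem_singleton E : E ∈ {P | On n Y P ∧ ¬ On n Λ P})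
    have on : ∀ P, On n Y P ↔ On n Λ P ∨ P = E := fun P =>
      ⟨fun h => or_iff_not_imp_left.2 fun h' =>
        (e ▸ (⟨h, h'⟩ : P ∈ {P | On n Y P ∧ ¬ On n Λ P}) : P ∈ ({E} : Set (Pl K))),
        fun h => h.elim (s.sub P) fun h => h ▸ hE.1⟩
    refine ⟨some E, fun P => by rw [on, Option.some_inj, eq_comm], fun P h => ?_,
      fun h => by simp at h, fun h => by omega⟩
    obtain rfl : E = P := Option.some_inj.1 h
    obtain ⟨Z, ΓZ, a, b, d, o⟩ := v.ext Λ m.term.smp m.term.big (m.des.trans s.des) s.sub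
    exact ⟨amp_of_rho (hf B m.smp) v.smp s.des (by omega), Z, ΓZ,
      xtr_of hN hK m.term m.qf a b d hE.2 fun Q => (o Q).trans (on Q)⟩

/-- a link is trivial or a link of the skeleton -/
theorem link_of (v : Vtx n G R Y ΓY) (s : Sd n R Y (Λ, Γ, B)) (s' : Sd n R Y (Λ', Γ', B'))
    (ne : ¬ (AmpOn Λ Λ' ∧ AmpOn B B')) : Step n (Λ, B, Γ) (Λ', B', Γ') := by
  obtain ⟨E, a1, a2, a3, a4⟩ := side hN hK hM hf v s
  obtain ⟨E', b1, b2, b3, b4⟩ := side hN hK hM hf v s'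
  have big : ¬ rho Y ≤ rho R + 1 := fun h => by
    obtain ⟨rfl, p⟩ := a4 h
    obtain ⟨rfl, p'⟩ := b4 h
    obtain ⟨c, hc⟩ := amp_large s.mfs.amp p.dsc' (s.mfs.des.trans s.des)
    obtain ⟨c', hc'⟩ := amp_large s'.mfs.amp p'.dsc' (s'.mfs.des.trans s'.des)
    exact ne ⟨amp_of_on hN hK s.mfs.term s'.mfs.term (hc _ (le_max_left c c'))
      (hc' _ (le_max_right c c')) fun P => by simpa using (a1 P).symm.trans (b1 P),
      p.trans p'.symm⟩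
  have u := v.rho
  have e : R - (R - G) = G := sub_sub_cancel R G
  obtain ⟨ΓW, w1, w2, w3⟩ := v.top
  have mf : ∀ {Λ Γ B : BD K}, Mfs n Λ Γ B → MFS n Λ B Γ := fun m =>
    ⟨m.term, m.qf, m.smp, m.des, m.nb, m.rho, m.amp⟩
  refine ⟨R, R - G, ![E, E'], v.smp, v.rat, v.nef, v.big,
    ⟨ΓW, w1, w2, fun P hP => w3 P ((v.on P).2 (e ▸ hP))⟩, e.symm ▸ v.nn,
    Fin.forall_fin_two.2 ⟨mf s.mfs, mf s'.mfs⟩, Fin.forall_fin_two.2 ⟨s.des, s'.des⟩,
    Fin.forall_fin_two.2 ⟨fun P => ?_, fun P => ?_⟩, Fin.forall_fin_two.2 ⟨a2, b2⟩,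
    Fin.forall_fin_two.2 ⟨fun h => ?_, fun h => ?_⟩, ne⟩
  · rw [e, ← v.on]; exact a1 P
  · rw [e, ← v.on]; exact b1 P
  · have := a3 h
    change rho B = _
    omega
  · have := b3 h
    change rho B' = _
    omega

theorem chain {a b : BD K × BD K × BD K} (ha : Smp a.1 ∧ Smp a.2.2)
    (h : Relation.ReflTransGen (Lnk n) a b) : ∃ X B, AmpOn X b.1 ∧ AmpOn B b.2.2 ∧
      Relation.ReflTransGen (Step n) (a.1, a.2.2, a.2.1) (X, B, b.2.1) := by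
  induction h with
  | refl => exact ⟨_, _, .refl ha.1, .refl ha.2, .refl⟩
  | @tail y z _ st ih =>
    obtain ⟨X, B, p, q, c⟩ := ih
    obtain ⟨G, R, Y, ΓY, v, s, s'⟩ := st
    have s₁ := sd_congr hN hK p q (Γ := y.2.1) s
    by_cases k : AmpOn X z.1 ∧ AmpOn B z.2.2
    · exact ⟨X, B, k.1, k.2,
        term_uniq hN hK s₁.mfs.term (term_congr hN hK k.1 s'.mfs.term) ▸ c⟩
    · exact ⟨_, _, .refl s'.mfs.term.smp, .refl s'.mfs.smp,
        c.tail (link_of hN hK hM hf v s₁ s' k)⟩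

end

theorem dim_zero (hF : FLD) (hK : FF K (n + 1)) (h : Smp Λ) (hb : Big Λ) : dim (0 : BD K) = 0 := by
  have k := (hF.nd (n + 1) K hK 0 Λ 1 Smp.zero h.nef hb (by omega)).2
  by_contra c
  have := k (by omega)
  simp [I] at this

/-- **GEOS** -/
theorem geos_of (hM : MOD) (hN : NEG) (hF : FLD) (hT : FTN) (hG : GEO) : GEOS := by
  intro K _ _ hK Λ Λ' h h'
  obtain ⟨Γ, t, -⟩ := h.term
  obtain ⟨Γ', t', -⟩ := h'.term
  have z := dim_zero hF hK t.smp t.big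
  obtain ⟨X, B, p, q, c⟩ := chain hN hK hM (hT.pic 3 K hK (ft_of h)) ⟨t.smp, Smp.zero⟩
    (hG 3 K hK Λ Γ Λ' Γ' h t h' t')
  exact ⟨ft_of h, 0, Γ, X, B, Γ', z, (dim_eq hN hK q).trans z, on_iff hN hK p, c⟩

end Vale.Agent.P287D.Lk
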